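import Mathlib
import Vale.Agent.P273.H604.ParHol
import Vale.Agent.P273.H630.KapInst
import Vale.Agent.P273.H517.Reg

/-! P273 / H517: the functions `hN` (necks), `KR`, `KU` (cores), `KF` (chart at infinity) of the
harmonic gauge near the theta curve, with uniform bounds. -/

namespace Vale.Agent.P273.H517

open Complex MeasureTheory Set Filter Topology Metric Bornology
open scoped Real ContDiff
open Vale.Agent.P273.H630 (cmIn sm_of_rad)

noncomputable section

variable {e : Fin 3 → ℂ}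

abbrev E3 : Type := Fin 3 → ℂ

/-- bounds on compact sets for a holomorphic function and its real derivative -/
theorem cpt_bound {E F : Type} [NormedAddCommGroup E] [NormedSpace ℂ E] [FiniteDimensional ℂ E]
    [NormedAddCommGroup F] [NormedSpace ℂ F] [CompleteSpace F] {f : E → F} {Ω : Set E}
    (hΩ : IsOpen Ω) (hf : DifferentiableOn ℂ f Ω) {K : Set E} (hK : IsCompact K) (hKΩ : K ⊆ Ω) :
    ∃ A : ℝ, 0 < A ∧ ∀ p ∈ K, ‖f p‖ ≤ A ∧ ‖fderiv ℝ f p‖ ≤ A := by
  have h1 : ContDiffOn ℝ 1 f Ω := H604.contDiffOn_real_of_differentiableOn hΩ hf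
  obtain ⟨A, hA⟩ := hK.exists_bound_of_continuousOn (h1.continuousOn.mono hKΩ)
  obtain ⟨B, hB⟩ := hK.exists_bound_of_continuousOn
    ((h1.continuousOn_fderiv_of_isOpen hΩ le_rfl).mono hKΩ)
  refine ⟨max 1 (max A B), lt_max_of_lt_left one_pos, fun p hp => ⟨?_, ?_⟩⟩
  · exact (hA p hp).trans ((le_max_left _ _).trans (le_max_right _ _))
  · exact (hB p hp).trans ((le_max_right _ _).trans (le_max_right _ _))

/-- projection -/
def pj (l : Fin 3) : E3 →L[ℂ] ℂ := ContinuousLinearMap.proj (R := ℂ) (φ := fun _ : Fin 3 => ℂ) l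

section

variable (he : Sep e) (ell : Fin 3 → Fin 3 → ℂ)

/-- the combination of two functions with the coefficients of the class -/
def cb (f : Fin 2 → E3 × ℂ → ℂ) (p : E3 × ℂ) : E3 →L[ℂ] ℂ :=
  f 0 p • (cmIn he ell).a0 p.1 + f 1 p • (cmIn he ell).a1 p.1

theorem cb_apply (f : Fin 2 → E3 × ℂ → ℂ) (p : E3 × ℂ) (c : E3) :
    cb he ell f p c = ∑ m, (cmIn he ell).af p.1 c m * f m p := by
  have h0 : (cmIn he ell).af p.1 c 0 = (cmIn he ell).a0 p.1 c := rfl
  have h1 : (cmIn he ell).af p.1 c 1 = (cmIn he ell).a1 p.1 c := rfl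
  rw [Fin.sum_univ_two, h0, h1]
  simp only [cb, add_apply, smul_apply, smul_eq_mul]
  ring

theorem differentiableOn_cb {f : Fin 2 → E3 × ℂ → ℂ} {Ω : Set (E3 × ℂ)}
    (hΩ : ∀ p ∈ Ω, p.1 ∈ (cmIn he ell).Om) (hf : ∀ m, DifferentiableOn ℂ (f m) Ω) :
    DifferentiableOn ℂ (cb he ell f) Ω := by
  have h0 : DifferentiableOn ℂ (fun p : E3 × ℂ => (cmIn he ell).a0 p.1) Ω := by
    intro p hp
    have h1 := ((cmIn he ell).analyticAt_a0 (hΩ p hp).1 (hΩ p hp).2).differentiableAt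
    exact (h1.comp p differentiableAt_fst).differentiableWithinAt
  have h1 : DifferentiableOn ℂ (fun p : E3 × ℂ => (cmIn he ell).a1 p.1) Ω := by
    intro p hp
    have h1 := ((cmIn he ell).analyticAt_a1 (hΩ p hp).1 (hΩ p hp).2).differentiableAt
    exact (h1.comp p differentiableAt_fst).differentiableWithinAt
  exact ((hf 0).smul h0).add ((hf 1).smul h1)

/-- the neck function: `X * hN (ε, X) c` is the regular part of the primitive -/
def hN (k : Fin 3) : E3 × ℂ → (E3 →L[ℂ] ℂ) :=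
  cb he ell fun m p => Rg e p.1 (m : ℕ) k p.2

theorem hN_apply (k : Fin 3) (p : E3 × ℂ) (c : E3) :
    p.2 * hN he ell k p c = ∑ m, (cmIn he ell).af p.1 c m * Rn e p.1 (m : ℕ) k p.2 := by
  rw [hN, cb_apply, Finset.mul_sum]
  refine Finset.sum_congr rfl fun m _ => ?_
  rw [Rn_eq]
  ring

/-- the open domain of `hN` -/
def NeckO : Set (E3 × ℂ) := {p | p.1 ∈ (cmIn he ell).Om ∧ ‖p.2‖ < 3 / 2}

theorem isOpen_NeckO : IsOpen (NeckO he ell) := by
  have h : NeckO he ell = (Prod.fst ⁻¹' (cmIn he ell).Om) ∩ {p : E3 × ℂ | ‖p.2‖ < 3 / 2} := rfl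
  rw [h]
  exact ((cmIn he ell).isOpen_Om.preimage continuous_fst).inter
    (isOpen_lt (by fun_prop) continuous_const)

theorem sm_of_Om {ε : E3} (h : ε ∈ (cmIn he ell).Om) : Sm ε := H630.sm_of_ball h.1

theorem differentiableOn_hN (k : Fin 3) : DifferentiableOn ℂ (hN he ell k) (NeckO he ell) := by
  refine differentiableOn_cb he ell (fun p hp => hp.1) fun m => ?_
  refine (differentiableOn_Rg he (m : ℕ) k).mono ?_
  intro p hp
  exact ⟨sm_of_Om he ell hp.1, mem_ball_zero_iff.2 hp.2⟩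

/-- the closed polydisc of the parameters -/
theorem rad_sub : closedBall (0 : E3) (cmIn he ell).rad ⊆ (cmIn he ell).Om :=
  (cmIn he ell).exists_bound.choose_spec.choose_spec.2.2.1

theorem hN_bound : ∃ A : ℝ, 0 < A ∧ ∀ k, ∀ ε : E3, ‖ε‖ ≤ (cmIn he ell).rad → ∀ X : ℂ, ‖X‖ ≤ 1 →
    ContDiffAt ℝ ∞ (hN he ell k) (ε, X) ∧ ‖hN he ell k (ε, X)‖ ≤ A ∧
      ‖fderiv ℝ (hN he ell k) (ε, X)‖ ≤ A := by
  have hK : IsCompact (closedBall (0 : E3) (cmIn he ell).rad ×ˢ closedBall (0 : ℂ) 1) :=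
    (isCompact_closedBall _ _).prod (isCompact_closedBall _ _)
  have hsub : closedBall (0 : E3) (cmIn he ell).rad ×ˢ closedBall (0 : ℂ) 1 ⊆ NeckO he ell := by
    rintro p ⟨h1, h2⟩
    refine ⟨rad_sub he ell h1, ?_⟩
    rw [mem_closedBall_zero_iff] at h2
    linarith
  choose A hA0 hA using fun k => cpt_bound (isOpen_NeckO he ell) (differentiableOn_hN he ell k)
    hK hsub
  refine ⟨∑ k, A k, Finset.sum_pos (fun k _ => hA0 k) Finset.univ_nonempty, ?_⟩
  intro k ε hε X hX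
  have hmem : ((ε, X) : E3 × ℂ) ∈ closedBall (0 : E3) (cmIn he ell).rad ×ˢ closedBall (0 : ℂ) 1 :=
    ⟨by simpa using hε, by simpa using hX⟩
  have hle : A k ≤ ∑ k, A k :=
    Finset.single_le_sum (f := A) (fun i _ => (hA0 i).le) (Finset.mem_univ k)
  refine ⟨?_, ((hA k _ hmem).1).trans hle, ((hA k _ hmem).2).trans hle⟩
  exact (H604.contDiffOn_real_of_differentiableOn (isOpen_NeckO he ell)
    (differentiableOn_hN he ell k)).contDiffAt ((isOpen_NeckO he ell).mem_nhds (hsub hmem))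

/-! ### cores -/

/-- the holomorphic part of the core function -/
def KM : E3 × ℂ → (E3 →L[ℂ] ℂ) := cb he ell fun m p => MM e p.1 (m : ℕ) p.2

/-- the open domain of `KM` -/
def CoreO : Set (E3 × ℂ) := {p | p.1 ∈ (cmIn he ell).Om ∧ ∀ k, 1 / 128 < ‖p.2 - e k‖}

theorem isOpen_CoreO : IsOpen (CoreO he ell) := by
  have h : CoreO he ell = (Prod.fst ⁻¹' (cmIn he ell).Om) ∩
      ⋂ k, {p : E3 × ℂ | 1 / 128 < ‖p.2 - e k‖} := by
    ext p
    simp [CoreO]
  rw [h]
  exact ((cmIn he ell).isOpen_Om.preimage continuous_fst).inter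
    (isOpen_iInter_of_finite fun k => isOpen_lt continuous_const (by fun_prop))

theorem differentiableOn_KM : DifferentiableOn ℂ (KM he ell) (CoreO he ell) := by
  refine differentiableOn_cb he ell (fun p hp => hp.1) fun m => ?_
  refine (differentiableOn_MM he (m : ℕ)).mono ?_
  intro p hp
  exact ⟨sm_of_Om he ell hp.1, hp.2⟩

/-- the core function with local branches `log ((x - e l) * u l) + a l` -/
def KU (u a : Fin 3 → ℂ) (p : E3 × ℂ) : E3 →L[ℂ] ℂ :=
  KM he ell p + ∑ l, (log ((p.2 - e l) * u l) + a l) • pj l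

theorem KU_apply (u a : Fin 3 → ℂ) (p : E3 × ℂ) (c : E3) :
    KU he ell u a p c = ∑ m, (cmIn he ell).af p.1 c m * MM e p.1 (m : ℕ) p.2 +
      ∑ l, c l * (log ((p.2 - e l) * u l) + a l) := by
  rw [KU, add_apply, KM, cb_apply, sum_apply]
  congr 1
  refine Finset.sum_congr rfl fun l _ => ?_
  simp only [pj, smul_apply, ContinuousLinearMap.proj_apply, smul_eq_mul]
  ring

theorem norm_log_le {w : ℂ} {R : ℝ} (h1 : 1 / 64 ≤ ‖w‖) (h2 : ‖w‖ ≤ R) :
    ‖log w‖ ≤ |Real.log R| + Real.log 64 + π := by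
  have h0 : 0 < ‖w‖ := by linarith
  have h3 : ‖log w‖ ≤ |(log w).re| + |(log w).im| := norm_le_abs_re_add_abs_im _
  rw [log_re, log_im] at h3
  have h4 : |arg w| ≤ π := abs_arg_le_pi w
  have h5 : |Real.log ‖w‖| ≤ |Real.log R| + Real.log 64 := by
    rw [abs_le]
    have h6 : Real.log (1 / 64) ≤ Real.log ‖w‖ := Real.log_le_log (by norm_num) h1
    have h7 : Real.log ‖w‖ ≤ Real.log R := Real.log_le_log h0 h2
    have h8 : Real.log (1 / 64) = -Real.log 64 := by
      rw [one_div, Real.log_inv]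
    have h9 := le_abs_self (Real.log R)
    have h10 := abs_nonneg (Real.log R)
    have h11 : 0 ≤ Real.log 64 := Real.log_nonneg (by norm_num)
    constructor <;> linarith
  linarith

theorem norm_pj_le (l : Fin 3) : ‖pj l‖ ≤ 1 :=
  ContinuousLinearMap.opNorm_le_bound _ zero_le_one fun c => by
    rw [one_mul]
    exact norm_le_pi_norm c l

/-- one logarithmic term -/
theorem log_term {l : Fin 3} {p : E3 × ℂ} {u a : ℂ} (hu : ‖u‖ = 1)
    (h1 : 0 < ((p.2 - e l) * u).re) (h64 : 1 / 64 ≤ ‖p.2 - e l‖) :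
    ContDiffAt ℝ ∞ (fun p : E3 × ℂ => (log ((p.2 - e l) * u) + a) • pj l) p ∧
      ‖fderiv ℝ (fun p : E3 × ℂ => (log ((p.2 - e l) * u) + a) • pj l) p‖ ≤ 64 := by
  have hs : (p.2 - e l) * u ∈ slitPlane := Or.inl h1
  have hu0 : u ≠ 0 := by
    rw [← norm_pos_iff, hu]
    exact one_pos
  have hx0 : p.2 - e l ≠ 0 := by
    rw [← norm_pos_iff]
    linarith
  have hd : HasFDerivAt (fun p : E3 × ℂ => log ((p.2 - e l) * u) + a)
      ((p.2 - e l)⁻¹ • ContinuousLinearMap.snd ℂ E3 ℂ) p := by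
    have h2 : HasFDerivAt (fun p : E3 × ℂ => (p.2 - e l) * u)
        (u • ContinuousLinearMap.snd ℂ E3 ℂ) p :=
      (hasFDerivAt_snd.sub_const (e l)).mul_const u
    have h3 := (h2.clog hs).add_const a
    refine h3.congr_fderiv ?_
    rw [smul_smul]
    congr 1
    field_simp
  have hd2 := hd.smul_const (pj l)
  have hd3 := hd2.restrictScalars ℝ
  refine ⟨?_, ?_⟩
  · have han : AnalyticAt ℂ (fun p : E3 × ℂ => (log ((p.2 - e l) * u) + a) • pj l) p := by
      have a1 : AnalyticAt ℂ (fun p : E3 × ℂ => (p.2 - e l) * u) p :=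
        (analyticAt_snd.sub analyticAt_const).mul analyticAt_const
      exact ((a1.clog hs).add analyticAt_const).smul analyticAt_const
    exact (han.contDiffAt (n := ∞)).restrict_scalars ℝ
  · rw [hd3.fderiv, ContinuousLinearMap.norm_restrictScalars]
    refine ContinuousLinearMap.opNorm_le_bound _ (by norm_num) fun v => ?_
    rw [ContinuousLinearMap.smulRight_apply, smul_apply, norm_smul, norm_smul, norm_inv]
    have h4 : ‖p.2 - e l‖⁻¹ ≤ 64 := by
      rw [inv_le_comm₀ (by linarith) (by norm_num)]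
      norm_num at h64 ⊢
      exact h64
    have h5 : ‖(ContinuousLinearMap.snd ℂ E3 ℂ) v‖ ≤ ‖v‖ := norm_snd_le v
    have h6 := norm_pj_le l
    calc ‖p.2 - e l‖⁻¹ * ‖(ContinuousLinearMap.snd ℂ E3 ℂ) v‖ * ‖pj l‖ ≤ 64 * ‖v‖ * 1 := by
          gcongr
      _ = 64 * ‖v‖ := mul_one _

theorem KU_bound (R : ℝ) : ∃ A : ℝ, 0 < A ∧ ∀ ε : E3, ‖ε‖ ≤ (cmIn he ell).rad →
    ∀ x : ℂ, ‖x‖ ≤ R → (∀ l, 1 / 64 ≤ ‖x - e l‖) → ∀ u a : Fin 3 → ℂ, (∀ l, ‖u l‖ = 1) →
    (∀ l, 0 < ((x - e l) * u l).re) → (∀ l, ‖a l‖ ≤ 16) →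
    ContDiffAt ℝ ∞ (KU he ell u a) (ε, x) ∧ ‖KU he ell u a (ε, x)‖ ≤ A ∧
      ‖fderiv ℝ (KU he ell u a) (ε, x)‖ ≤ A := by
  set Kc : Set (E3 × ℂ) := closedBall (0 : E3) (cmIn he ell).rad ×ˢ
    (closedBall (0 : ℂ) R ∩ ⋂ l, {x : ℂ | 1 / 64 ≤ ‖x - e l‖}) with hKc
  have hK : IsCompact Kc := by
    refine (isCompact_closedBall _ _).prod ((isCompact_closedBall _ _).inter_right ?_)
    exact isClosed_iInter fun l => isClosed_le continuous_const (by fun_prop)
  have hsub : Kc ⊆ CoreO he ell := by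
    rintro p ⟨h1, _, h3⟩
    refine ⟨rad_sub he ell h1, fun k => ?_⟩
    have h4 := mem_iInter.1 h3 k
    rw [mem_ofPred_eq] at h4
    norm_num at h4 ⊢
    linarith
  obtain ⟨A, hA0, hA⟩ := cpt_bound (isOpen_CoreO he ell) (differentiableOn_KM he ell) hK hsub
  set B : ℝ := ∑ l, (|Real.log (R + ‖e l‖)| + Real.log 64 + π + 16) with hB
  have hl64 : 0 ≤ Real.log 64 := Real.log_nonneg (by norm_num)
  have hB0 : 0 ≤ B := by
    refine Finset.sum_nonneg fun l _ => ?_
    have := Real.pi_pos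
    have := abs_nonneg (Real.log (R + ‖e l‖))
    linarith
  refine ⟨A + B + 3 * 64, by linarith, ?_⟩
  intro ε hε x hx hx64 u a hu hre ha
  have hmem : ((ε, x) : E3 × ℂ) ∈ Kc :=
    ⟨by simpa using hε, by simpa using hx, mem_iInter.2 hx64⟩
  have hc1 : ContDiffAt ℝ ∞ (KM he ell) (ε, x) :=
    (H604.contDiffOn_real_of_differentiableOn (isOpen_CoreO he ell)
      (differentiableOn_KM he ell)).contDiffAt ((isOpen_CoreO he ell).mem_nhds (hsub hmem))
  have hl : ∀ l, ContDiffAt ℝ ∞ (fun p : E3 × ℂ => (log ((p.2 - e l) * u l) + a l) • pj l)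
      (ε, x) ∧ ‖fderiv ℝ (fun p : E3 × ℂ => (log ((p.2 - e l) * u l) + a l) • pj l) (ε, x)‖ ≤ 64 :=
    fun l => log_term (p := (ε, x)) (hu l) (hre l) (hx64 l)
  have hsum : ContDiffAt ℝ ∞ (fun p : E3 × ℂ => ∑ l, (log ((p.2 - e l) * u l) + a l) • pj l)
      (ε, x) := ContDiffAt.sum fun l _ => (hl l).1
  refine ⟨hc1.add hsum, ?_, ?_⟩
  · have h2 : ∀ l, ‖(log ((x - e l) * u l) + a l) • pj l‖ ≤
        |Real.log (R + ‖e l‖)| + Real.log 64 + π + 16 := by
      intro l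
      have hn : ‖(x - e l) * u l‖ = ‖x - e l‖ := by rw [norm_mul, hu l, mul_one]
      have h3 := norm_log_le (w := (x - e l) * u l) (R := R + ‖e l‖)
        (by rw [hn]; exact hx64 l) (by
          rw [hn]
          exact (norm_sub_le _ _).trans (by linarith))
      have h4 : ‖log ((x - e l) * u l) + a l‖ ≤
          |Real.log (R + ‖e l‖)| + Real.log 64 + π + 16 :=
        (norm_add_le _ _).trans (add_le_add h3 (ha l))
      rw [norm_smul]
      calc ‖log ((x - e l) * u l) + a l‖ * ‖pj l‖ ≤ ‖log ((x - e l) * u l) + a l‖ * 1 :=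
            mul_le_mul_of_nonneg_left (norm_pj_le l) (norm_nonneg _)
        _ ≤ _ := by rw [mul_one]; exact h4
    have h5 : ‖∑ l, (log ((x - e l) * u l) + a l) • pj l‖ ≤ B :=
      (norm_sum_le _ _).trans (Finset.sum_le_sum fun l _ => h2 l)
    have h6 : ‖KU he ell u a (ε, x)‖ ≤ A + B :=
      (norm_add_le _ _).trans (add_le_add (hA _ hmem).1 h5)
    linarith
  · have hd1 : DifferentiableAt ℝ (KM he ell) (ε, x) := hc1.differentiableAt (by simp)
    have hdl : ∀ l, DifferentiableAt ℝ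
        (fun p : E3 × ℂ => (log ((p.2 - e l) * u l) + a l) • pj l) (ε, x) :=
      fun l => (hl l).1.differentiableAt (by simp)
    have hs2 : HasFDerivAt (fun p : E3 × ℂ => ∑ l, (log ((p.2 - e l) * u l) + a l) • pj l)
        (∑ l, fderiv ℝ (fun p : E3 × ℂ => (log ((p.2 - e l) * u l) + a l) • pj l) (ε, x))
        (ε, x) := HasFDerivAt.fun_sum fun l _ => (hdl l).hasFDerivAt
    have h3 : HasFDerivAt (KU he ell u a) (fderiv ℝ (KM he ell) (ε, x) +
        ∑ l, fderiv ℝ (fun p : E3 × ℂ => (log ((p.2 - e l) * u l) + a l) • pj l) (ε, x))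
        (ε, x) := hd1.hasFDerivAt.add hs2
    rw [h3.fderiv]
    have h4 : ‖∑ l, fderiv ℝ (fun p : E3 × ℂ => (log ((p.2 - e l) * u l) + a l) • pj l) (ε, x)‖
        ≤ 3 * 64 := by
      have h7 := norm_sum_le (Finset.univ : Finset (Fin 3))
        (fun l => fderiv ℝ (fun p : E3 × ℂ => (log ((p.2 - e l) * u l) + a l) • pj l) (ε, x))
      refine h7.trans ?_
      have h8 : ∑ l, ‖fderiv ℝ (fun p : E3 × ℂ => (log ((p.2 - e l) * u l) + a l) • pj l) (ε, x)‖
          ≤ ∑ _l : Fin 3, (64 : ℝ) := Finset.sum_le_sum fun l _ => (hl l).2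
      refine h8.trans (le_of_eq ?_)
      simp
    have h5 := (hA _ hmem).2
    have h6 := norm_add_le (fderiv ℝ (KM he ell) (ε, x))
      (∑ l, fderiv ℝ (fun p : E3 × ℂ => (log ((p.2 - e l) * u l) + a l) • pj l) (ε, x))
    linarith

/-! ### the chart at infinity -/

/-- the core function in the chart `w = 1 / x`; the logarithms are `log (1 - e l w)` -/
def KF (p : E3 × ℂ) : E3 →L[ℂ] ℂ :=
  cb he ell (fun m p => MI e p.1 (m : ℕ) p.2) p + ∑ l, log (1 - e l * p.2) • pj l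

theorem KF_apply (p : E3 × ℂ) (c : E3) :
    KF he ell p c = ∑ m, (cmIn he ell).af p.1 c m * MI e p.1 (m : ℕ) p.2 +
      ∑ l, c l * log (1 - e l * p.2) := by
  rw [KF, add_apply, cb_apply, sum_apply]
  congr 1
  refine Finset.sum_congr rfl fun l _ => ?_
  simp only [pj, smul_apply, ContinuousLinearMap.proj_apply, smul_eq_mul]
  ring

/-- the open domain of `KF` -/
def FarO : Set (E3 × ℂ) := {p | p.1 ∈ (cmIn he ell).Om ∧
  (∀ k, ‖p.2‖ < 128 * ‖1 - e k * p.2‖) ∧ ∀ k, 0 < (1 - e k * p.2).re}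

theorem isOpen_FarO : IsOpen (FarO he ell) := by
  have h : FarO he ell = (Prod.fst ⁻¹' (cmIn he ell).Om) ∩
      ((⋂ k, {p : E3 × ℂ | ‖p.2‖ < 128 * ‖1 - e k * p.2‖}) ∩
        ⋂ k, {p : E3 × ℂ | 0 < (1 - e k * p.2).re}) := by
    ext p
    simp [FarO]
  rw [h]
  refine ((cmIn he ell).isOpen_Om.preimage continuous_fst).inter
    ((isOpen_iInter_of_finite fun k => isOpen_lt (by fun_prop) (by fun_prop)).inter
      (isOpen_iInter_of_finite fun k => isOpen_lt continuous_const ?_))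
  exact continuous_re.comp (by fun_prop)

theorem differentiableOn_KF : DifferentiableOn ℂ (KF he ell) (FarO he ell) := by
  have h1 : DifferentiableOn ℂ (cb he ell fun m p => MI e p.1 (m : ℕ) p.2) (FarO he ell) := by
    refine differentiableOn_cb he ell (fun p hp => hp.1) fun m => ?_
    refine (differentiableOn_MI he (m : ℕ)).mono ?_
    intro p hp
    exact ⟨sm_of_Om he ell hp.1, hp.2.1⟩
  have h2 : DifferentiableOn ℂ (fun p : E3 × ℂ => ∑ l, log (1 - e l * p.2) • pj l)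
      (FarO he ell) := by
    refine DifferentiableOn.fun_sum fun l _ => ?_
    intro p hp
    have h3 : DifferentiableAt ℂ (fun p : E3 × ℂ => log (1 - e l * p.2)) p :=
      DifferentiableAt.clog (by fun_prop) (Or.inl (hp.2.2 l))
    exact (h3.smul_const (pj l)).differentiableWithinAt
  exact h1.add h2

theorem KF_zero (ε : E3) : KF he ell (ε, 0) = 0 := by
  ext c
  rw [KF_apply]
  simp [MI_zero]

theorem KF_bound (h7 : ∀ l, ‖e l‖ ≤ 7) : ∃ A : ℝ, 0 < A ∧ ∀ ε : E3, ‖ε‖ ≤ (cmIn he ell).rad →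
    ∀ w : ℂ, ‖w‖ ≤ 1 / 8 → (∀ l, 0 < (1 - e l * w).re) ∧
    ContDiffAt ℝ ∞ (KF he ell) (ε, w) ∧ ‖KF he ell (ε, w)‖ ≤ A ∧
      ‖fderiv ℝ (KF he ell) (ε, w)‖ ≤ A := by
  have hK : IsCompact (closedBall (0 : E3) (cmIn he ell).rad ×ˢ closedBall (0 : ℂ) (1 / 8)) :=
    (isCompact_closedBall _ _).prod (isCompact_closedBall _ _)
  have hsub : closedBall (0 : E3) (cmIn he ell).rad ×ˢ closedBall (0 : ℂ) (1 / 8) ⊆
      FarO he ell := by
    rintro p ⟨h1, h2⟩
    rw [mem_closedBall_zero_iff] at h2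
    have h3 : ∀ l, ‖e l * p.2‖ ≤ 7 / 8 := by
      intro l
      rw [norm_mul]
      calc ‖e l‖ * ‖p.2‖ ≤ 7 * (1 / 8) := by
            gcongr
            exact h7 l
        _ = 7 / 8 := by norm_num
    refine ⟨rad_sub he ell h1, fun l => ?_, fun l => ?_⟩
    · have h4 : 1 - ‖e l * p.2‖ ≤ ‖1 - e l * p.2‖ := by
        have := norm_sub_norm_le (1 : ℂ) (e l * p.2)
        rwa [norm_one] at this
      have := h3 l
      linarith
    · have h4 := abs_re_le_norm (e l * p.2)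
      have h5 := (abs_le.1 h4).2
      have h6 := h3 l
      rw [sub_re, one_re]
      linarith
  obtain ⟨A, hA0, hA⟩ := cpt_bound (isOpen_FarO he ell) (differentiableOn_KF he ell) hK hsub
  refine ⟨A, hA0, fun ε hε w hw => ?_⟩
  have hmem : ((ε, w) : E3 × ℂ) ∈
      closedBall (0 : E3) (cmIn he ell).rad ×ˢ closedBall (0 : ℂ) (1 / 8) :=
    ⟨by simpa using hε, by simpa using hw⟩
  refine ⟨(hsub hmem).2.2, ?_, (hA _ hmem).1, (hA _ hmem).2⟩
  exact (H604.contDiffOn_real_of_differentiableOn (isOpen_FarO he ell)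
    (differentiableOn_KF he ell)).contDiffAt ((isOpen_FarO he ell).mem_nhds (hsub hmem))

end

end

end Vale.Agent.P273.H517
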