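import Mathlib
import Vale.Agent.P273.H517.Bd
import Vale.Agent.P273.H630.D0
import Vale.Agent.P273.H132.LgU

/-! P273 / H517: the explicit functions at the theta point: `h0` on the necks, `K0 false` on the
cores (chart `x`, branch at the base point `z₀`), `K0 true` at infinity (chart `w = 1 / x`), with
uniform bounds; the instance `u0 : UData`. -/

namespace Vale.Agent.P273.H517

open Complex MeasureTheory Set Filter Topology Metric Bornology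
open scoped Real ContDiff
open Vale.Agent.P273.H630 (cmIn ell0 sep_ctr I0 D0 af0)
open Vale.Agent.P273.H95 (ctr)

noncomputable section

/-- the conjugate of the unit vector of `z - e` -/
def ub (e z : ℂ) : ℂ := (starRingEnd ℂ) (z - e) / (‖z - e‖ : ℂ)

theorem norm_ub {e z : ℂ} (h : z ≠ e) : ‖ub e z‖ = 1 := by
  have h0 : ‖z - e‖ ≠ 0 := norm_ne_zero_iff.2 (sub_ne_zero.2 h)
  unfold ub
  rw [norm_div, RCLike.norm_conj, norm_real, norm_norm, div_self h0]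

theorem mul_ub {e z : ℂ} (h : z ≠ e) : (z - e) * ub e z = (‖z - e‖ : ℂ) := by
  have h0 : (‖z - e‖ : ℂ) ≠ 0 := ofReal_ne_zero.2 (norm_ne_zero_iff.2 (sub_ne_zero.2 h))
  unfold ub
  rw [mul_div_assoc', mul_conj, div_eq_iff h0, normSq_eq_norm_sq]
  push_cast
  ring

/-- the regular part on the necks -/
def h0 (k : Fin 3) : E3 × ℂ → (E3 →L[ℂ] ℂ) := hN sep_ctr ell0 k

/-- the primitives on the cores -/
def K0 (f : Bool) (z : ℂ) : E3 × ℂ → (E3 →L[ℂ] ℂ) :=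
  if f then KF sep_ctr ell0 else KU sep_ctr ell0 (fun l => ub (ctr l) z) 0

theorem h0_apply (k : Fin 3) (p : E3 × ℂ) (c : E3) :
    p.2 * h0 k p c = ∑ m, af0 p.1 c m * Rn ctr p.1 (m : ℕ) k p.2 := hN_apply _ _ _ _ _

theorem K0_near (z : ℂ) (p : E3 × ℂ) (c : E3) :
    K0 false z p c = ∑ m, af0 p.1 c m * MM ctr p.1 (m : ℕ) p.2 +
      ∑ l, c l * log ((p.2 - ctr l) * ub (ctr l) z) := by
  have h : K0 false z p c = KU sep_ctr ell0 (fun l => ub (ctr l) z) 0 p c := rfl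
  rw [h, KU_apply]
  simp only [Pi.zero_apply, add_zero]
  rfl

theorem K0_far (z : ℂ) (p : E3 × ℂ) (c : E3) :
    K0 true z p c = ∑ m, af0 p.1 c m * MI ctr p.1 (m : ℕ) p.2 +
      ∑ l, c l * log (1 - ctr l * p.2) := KF_apply _ _ _ _

theorem norm_ctr_le (l : Fin 3) : ‖ctr l‖ ≤ 7 := by
  have h : ctr l = ((2 * (l : ℕ) + 3 / 2 : ℝ) : ℂ) := by
    unfold Vale.Agent.P273.H95.ctr
    push_cast
    ring
  rw [h, norm_real, Real.norm_of_nonneg (by positivity)]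
  have h2 : ((l : ℕ) : ℝ) ≤ 2 := by
    have := l.2
    exact_mod_cast (by omega : (l : ℕ) ≤ 2)
  linarith

theorem exists_A0 : ∃ A : ℝ, 0 < A ∧
    (∀ k (ε : E3) (X : ℂ), ‖ε‖ < D0.ρ → ‖X‖ ≤ 1 → ContDiffAt ℝ ∞ (h0 k) (ε, X) ∧
      ‖h0 k (ε, X)‖ ≤ A ∧ ‖fderiv ℝ (h0 k) (ε, X)‖ ≤ A) ∧
    (∀ (ε : E3) (x : ℂ), ‖ε‖ < D0.ρ → ‖x‖ ≤ 11 → (∀ l, 1 / 64 ≤ ‖x - ctr l‖) →
      ContDiffAt ℝ ∞ (K0 false x) (ε, x) ∧ ‖K0 false x (ε, x)‖ ≤ A ∧
        ‖fderiv ℝ (K0 false x) (ε, x)‖ ≤ A) ∧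
    (∀ (ε : E3) (z w : ℂ), ‖ε‖ < D0.ρ → ‖w‖ ≤ 11⁻¹ → ContDiffAt ℝ ∞ (K0 true z) (ε, w) ∧
      ‖K0 true z (ε, w)‖ ≤ A ∧ ‖fderiv ℝ (K0 true z) (ε, w)‖ ≤ A) := by
  obtain ⟨A1, h1, H1⟩ := hN_bound sep_ctr ell0
  obtain ⟨A2, h2, H2⟩ := KU_bound sep_ctr ell0 11
  obtain ⟨A3, h3, H3⟩ := KF_bound sep_ctr ell0 norm_ctr_le
  refine ⟨A1 + A2 + A3, by linarith, ?_, ?_, ?_⟩
  · intro k ε X hε hX
    obtain ⟨a, b, c⟩ := H1 k ε (le_of_lt hε) X hX
    exact ⟨a, b.trans (by linarith), c.trans (by linarith)⟩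
  · intro ε x hε hx hx64
    have hne : ∀ l, x ≠ ctr l := by
      intro l hl
      have := hx64 l
      rw [hl, sub_self, norm_zero] at this
      norm_num at this
    obtain ⟨a, b, c⟩ := H2 ε (le_of_lt hε) x hx hx64 (fun l => ub (ctr l) x) 0
      (fun l => norm_ub (hne l)) (fun l => by
        rw [mul_ub (hne l), ofReal_re]
        exact norm_pos_iff.2 (sub_ne_zero.2 (hne l))) (fun l => by simp)
    exact ⟨a, b.trans (by linarith), c.trans (by linarith)⟩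
  · intro ε z w hε hw
    obtain ⟨_, a, b, c⟩ := H3 ε (le_of_lt hε) w (hw.trans (by norm_num))
    exact ⟨a, b.trans (by linarith), c.trans (by linarith)⟩

/-- the common bound -/
def A0 : ℝ := exists_A0.choose

theorem A0_pos : 0 < A0 := exists_A0.choose_spec.1

theorem h0_all {k : Fin 3} {ε : E3} {X : ℂ} (hε : ‖ε‖ < D0.ρ) (hX : ‖X‖ ≤ 1) :
    ContDiffAt ℝ ∞ (h0 k) (ε, X) ∧ ‖h0 k (ε, X)‖ ≤ A0 ∧ ‖fderiv ℝ (h0 k) (ε, X)‖ ≤ A0 :=
  exists_A0.choose_spec.2.1 k ε X hε hX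

theorem K0_all {ε : E3} {x : ℂ} (hε : ‖ε‖ < D0.ρ) (hx : ‖x‖ ≤ 11)
    (hx64 : ∀ l, 1 / 64 ≤ ‖x - ctr l‖) :
    ContDiffAt ℝ ∞ (K0 false x) (ε, x) ∧ ‖K0 false x (ε, x)‖ ≤ A0 ∧
      ‖fderiv ℝ (K0 false x) (ε, x)‖ ≤ A0 :=
  exists_A0.choose_spec.2.2.1 ε x hε hx hx64

theorem KI0_all {ε : E3} {z w : ℂ} (hε : ‖ε‖ < D0.ρ) (hw : ‖w‖ ≤ 11⁻¹) :
    ContDiffAt ℝ ∞ (K0 true z) (ε, w) ∧ ‖K0 true z (ε, w)‖ ≤ A0 ∧
      ‖fderiv ℝ (K0 true z) (ε, w)‖ ≤ A0 :=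
  exists_A0.choose_spec.2.2.2 ε z w hε hw

/-- **the explicit data at the theta point** -/
def u0 : H132.UData where
  D := D0
  h := h0
  K := K0
  ρ := D0.ρ
  A := A0
  ρ_pos := D0.ρ_pos
  h_diff k ε X hε hX := (h0_all hε hX).1.differentiableAt (by simp)
  h_le k ε X hε hX := (h0_all hε hX).2.1
  h'_le k ε X hε hX := (h0_all hε hX).2.2
  K_diff ε x hε hx h64 := (K0_all hε hx h64).1.differentiableAt (by simp)
  K_le ε x hε hx h64 := (K0_all hε hx h64).2.1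
  K'_le ε x hε hx h64 := (K0_all hε hx h64).2.2
  KI_diff ε w hε hw := (KI0_all hε hw).1.differentiableAt (by simp)
  KI_le ε w hε hw := (KI0_all hε hw).2.1
  KI'_le ε w hε hw := (KI0_all hε hw).2.2

@[simp] theorem u0_D : u0.D = D0 := rfl
@[simp] theorem u0_h : u0.h = h0 := rfl
@[simp] theorem u0_K : u0.K = K0 := rfl
@[simp] theorem u0_ρ : u0.ρ = D0.ρ := rfl

/-- the logarithm used on the cores is a branch of `log (x - e)` at the base point -/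
theorem hasDerivAt_log_ub {e z : ℂ} (h : z ≠ e) :
    HasDerivAt (fun x : ℂ => log ((x - e) * ub e z)) ((z - e)⁻¹) z := by
  have hn : 0 < ‖z - e‖ := norm_pos_iff.2 (sub_ne_zero.2 h)
  have hs : (z - e) * ub e z ∈ slitPlane := by
    rw [mul_ub h]
    exact ofReal_mem_slitPlane.2 hn
  have hx : z - e ≠ 0 := sub_ne_zero.2 h
  have hu : ub e z ≠ 0 := by
    rw [← norm_pos_iff, norm_ub h]
    exact one_pos
  have h2 := (((hasDerivAt_id z).sub_const e).mul_const (ub e z)).clog hs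
  refine h2.congr_deriv ?_
  simp only [id]
  field_simp

theorem re_log_ub {e z x : ℂ} (h : z ≠ e) :
    (log ((x - e) * ub e z)).re = Real.log ‖x - e‖ := by
  rw [log_re, norm_mul, norm_ub h, mul_one]

end

end Vale.Agent.P273.H517
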