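import Mathlib

/-! P273 / H517: the exterior Cauchy formula for one hole and for products. -/

namespace Vale.Agent.P273.H517

open Complex MeasureTheory Set Filter Topology Metric Bornology
open scoped Real

noncomputable section

/-- the Cauchy integral over the circle of centre `e` -/
def JJ (f : ℂ → ℂ) (e : ℂ) (r : ℝ) (x : ℂ) : ℂ :=
  (2 * π * I : ℂ)⁻¹ * ∮ z in C(e, r), f z * (x - z)⁻¹

theorem tpi_ne : (2 * π * I : ℂ) ≠ 0 := by
  have h1 : (π : ℂ) ≠ 0 := by exact_mod_cast Real.pi_ne_zero
  exact mul_ne_zero (mul_ne_zero two_ne_zero h1) I_ne_zero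

theorem circle_inv_zero {e x : ℂ} {r : ℝ} (h0 : 0 < r) (hx : r < ‖x - e‖) :
    (∮ z in C(e, r), (z - x)⁻¹) = 0 := by
  have hne : ∀ z ∈ closedBall e r, z - x ≠ 0 := by
    intro z hz h
    rw [mem_closedBall, dist_eq_norm, sub_eq_zero.1 h] at hz
    linarith
  refine circleIntegral_eq_zero_of_differentiable_on_off_countable h0.le countable_empty ?_ ?_
  · exact ContinuousOn.inv₀ (by fun_prop) hne
  · intro z hz
    exact (DifferentiableAt.sub_const differentiableAt_id x).inv
      (hne z (ball_subset_closedBall hz.1))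

/-- the exterior Cauchy formula, one hole -/
theorem one_hole {f : ℂ → ℂ} {e : ℂ} {r₀ r : ℝ} (h0 : 0 < r) (hr : r₀ < r)
    (hf : DifferentiableOn ℂ f {z | r₀ < ‖z - e‖}) (hinf : Tendsto f (cobounded ℂ) (𝓝 0))
    {x : ℂ} (hx : r < ‖x - e‖) : f x = JJ f e r x := by
  have hopen : IsOpen {z : ℂ | r₀ < ‖z - e‖} := isOpen_lt continuous_const (by fun_prop)
  have hxm : {z : ℂ | r₀ < ‖z - e‖} ∈ 𝓝 x := hopen.mem_nhds (hr.trans hx)
  have hg : DifferentiableOn ℂ (dslope f x) {z | r₀ < ‖z - e‖} :=
    (differentiableOn_dslope hxm).2 hf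
  have hsph : ∀ R : ℝ, r ≤ R → ∀ z ∈ sphere e R, r₀ < ‖z - e‖ := by
    intro R hR z hz
    rw [mem_sphere_iff_norm] at hz
    linarith
  have hform : ∀ R : ℝ, r ≤ R → R ≠ ‖x - e‖ →
      (∮ z in C(e, R), dslope f x z) =
        (∮ z in C(e, R), (z - x)⁻¹ * f z) - f x * ∮ z in C(e, R), (z - x)⁻¹ := by
    intro R hR hRx
    have hR0 : 0 < R := h0.trans_le hR
    have hne : ∀ z ∈ sphere e R, z - x ≠ 0 := by
      intro z hz h
      rw [mem_sphere_iff_norm, sub_eq_zero.1 h] at hz
      exact hRx hz.symm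
    have c1 : ContinuousOn (fun z => (z - x)⁻¹) (sphere e R) :=
      ContinuousOn.inv₀ (by fun_prop) hne
    have c2 : ContinuousOn f (sphere e R) := hf.continuousOn.mono (hsph R hR)
    have c3 : CircleIntegrable (fun z => (z - x)⁻¹ * f z) e R :=
      (c1.mul c2).circleIntegrable hR0.le
    have c4 : CircleIntegrable (fun z => f x * (z - x)⁻¹) e R :=
      (continuousOn_const.mul c1).circleIntegrable hR0.le
    rw [← circleIntegral.integral_const_mul, ← circleIntegral.integral_sub c3 c4]
    refine circleIntegral.integral_congr hR0.le fun z hz => ?_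
    have hzx : z ≠ x := sub_ne_zero.1 (hne z hz)
    rw [dslope_of_ne _ hzx, slope_def_field]
    have := hne z hz
    field_simp
  have hann : ∀ R : ℝ, ‖x - e‖ < R →
      (∮ z in C(e, r), (z - x)⁻¹ * f z) =
        (∮ z in C(e, R), (z - x)⁻¹ * f z) - 2 * π * I * f x := by
    intro R hR
    have hrR : r ≤ R := (hx.trans hR).le
    have hsub : closedBall e R \ ball e r ⊆ {z : ℂ | r₀ < ‖z - e‖} := by
      intro z hz
      have h1 : r ≤ ‖z - e‖ := by
        have := hz.2
        rw [mem_ball, dist_eq_norm, not_lt] at this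
        exact this
      exact hr.trans_le h1
    have h1 := circleIntegral_eq_of_differentiable_on_annulus_off_countable h0 hrR
      (f := dslope f x) countable_empty (hg.continuousOn.mono hsub) (by
        intro z hz
        refine hg.differentiableAt (hopen.mem_nhds (hsub ?_))
        exact ⟨ball_subset_closedBall hz.1.1, fun h => hz.1.2 (ball_subset_closedBall h)⟩)
    rw [hform r le_rfl hx.ne, hform R hrR hR.ne', circle_inv_zero h0 hx,
      circleIntegral.integral_sub_inv_of_mem_ball (by rw [mem_ball, dist_eq_norm]; exact hR)] at h1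
    linear_combination -h1
  have hlim : Tendsto (fun R : ℝ => ∮ z in C(e, R), (z - x)⁻¹ * f z) atTop (𝓝 0) := by
    rw [Metric.tendsto_nhds]
    intro δ hδ
    have h1 : ∀ᶠ z in cobounded ℂ, ‖f z‖ < δ / (8 * π) := by
      have := (hinf.norm).eventually_lt_const (u := δ / (8 * π)) (by
        rw [norm_zero]
        have := Real.pi_pos
        positivity)
      exact this
    obtain ⟨K, hK⟩ := (hasBasis_cobounded_norm.eventually_iff).1 h1
    filter_upwards [eventually_gt_atTop (max (2 * ‖x - e‖) (max (K + ‖e‖) 1))] with R hR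
    have hR1 : 2 * ‖x - e‖ < R := (le_max_left _ _).trans_lt hR
    have hR2 : K + ‖e‖ < R := ((le_max_left _ _).trans (le_max_right _ _)).trans_lt hR
    have hR3 : (1 : ℝ) < R := ((le_max_right _ _).trans (le_max_right _ _)).trans_lt hR
    have hR0 : 0 < R := by linarith
    rw [dist_zero_right]
    have h2 : ‖∮ z in C(e, R), (z - x)⁻¹ * f z‖ ≤ 2 * π * R * ((R / 2)⁻¹ * (δ / (8 * π))) := by
      refine circleIntegral.norm_integral_le_of_norm_le_const hR0.le fun z hz => ?_
      rw [mem_sphere_iff_norm] at hz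
      rw [norm_mul, norm_inv]
      refine mul_le_mul ?_ ?_ (norm_nonneg _) (by positivity)
      · refine inv_anti₀ (by positivity) ?_
        have h3 : ‖z - e‖ ≤ ‖z - x‖ + ‖x - e‖ := norm_sub_le_norm_sub_add_norm_sub z x e
        linarith
      · refine (hK.2 ?_).le
        have h4 : ‖z - e‖ ≤ ‖z‖ + ‖e‖ := norm_sub_le z e
        rw [mem_ofPred_eq]
        linarith
    refine h2.trans_lt ?_
    have h5 : 2 * π * R * ((R / 2)⁻¹ * (δ / (8 * π))) = δ / 2 := by
      have := Real.pi_pos.ne'
      field_simp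
      ring
    rw [h5]
    linarith
  have hcon : (∮ z in C(e, r), (z - x)⁻¹ * f z) = 0 - 2 * π * I * f x := by
    refine tendsto_nhds_unique (f := fun _ : ℝ => ∮ z in C(e, r), (z - x)⁻¹ * f z)
      tendsto_const_nhds ?_ (l := atTop)
    refine (hlim.sub_const (2 * π * I * f x)).congr' ?_
    filter_upwards [eventually_gt_atTop ‖x - e‖] with R hR
    exact (hann R hR).symm
  unfold JJ
  have h6 : (∮ z in C(e, r), f z * (x - z)⁻¹) = -∮ z in C(e, r), (z - x)⁻¹ * f z := by
    have h7 : (∮ z in C(e, r), f z * (x - z)⁻¹) =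
        ∮ z in C(e, r), (-1 : ℂ) * ((z - x)⁻¹ * f z) := by
      refine circleIntegral.integral_congr h0.le fun z _ => ?_
      rw [← neg_sub z x, inv_neg]
      ring
    rw [h7, circleIntegral.integral_const_mul]
    ring
  rw [h6, hcon]
  have := tpi_ne
  field_simp
  ring

/-- two circle integrals commute -/
theorem circle_swap {G : ℂ → ℂ → ℂ} {a b : ℂ} {r s : ℝ} (hr : 0 ≤ r) (hs : 0 ≤ s)
    (hG : ContinuousOn (fun p : ℂ × ℂ => G p.1 p.2) (sphere a r ×ˢ sphere b s)) :
    (∮ z in C(a, r), ∮ w in C(b, s), G z w) = ∮ w in C(b, s), ∮ z in C(a, r), G z w := by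
  have hG2 : Continuous (fun p : ℝ × ℝ => G (circleMap a r p.1) (circleMap b s p.2)) := by
    rw [← continuousOn_univ]
    refine hG.comp (f := fun p : ℝ × ℝ => (circleMap a r p.1, circleMap b s p.2)) ?_ ?_
    · exact (((continuous_circleMap a r).comp continuous_fst).prodMk
        ((continuous_circleMap b s).comp continuous_snd)).continuousOn
    · intro p _
      exact ⟨circleMap_mem_sphere a hr _, circleMap_mem_sphere b hs _⟩
  have hF : Continuous (fun p : ℝ × ℝ => deriv (circleMap a r) p.1 *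
      (deriv (circleMap b s) p.2 * G (circleMap a r p.1) (circleMap b s p.2))) := by
    have h1 : Continuous (fun p : ℝ × ℝ => deriv (circleMap a r) p.1) := by
      simp only [deriv_circleMap]
      exact ((continuous_circleMap 0 r).comp continuous_fst).mul continuous_const
    have h2 : Continuous (fun p : ℝ × ℝ => deriv (circleMap b s) p.2) := by
      simp only [deriv_circleMap]
      exact ((continuous_circleMap 0 s).comp continuous_snd).mul continuous_const
    exact h1.mul (h2.mul hG2)
  have hsw := intervalIntegral_intervalIntegral_swap (a := 0) (b := 2 * π) (c := 0) (d := 2 * π)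
    (F := fun θ φ => deriv (circleMap a r) θ *
      (deriv (circleMap b s) φ * G (circleMap a r θ) (circleMap b s φ))) (by
    have h1 : IntegrableOn (fun p : ℝ × ℝ => deriv (circleMap a r) p.1 *
      (deriv (circleMap b s) p.2 * G (circleMap a r p.1) (circleMap b s p.2)))
      (uIcc 0 (2 * π) ×ˢ uIcc 0 (2 * π)) :=
      hF.continuousOn.integrableOn_compact (isCompact_uIcc.prod isCompact_uIcc)
    exact h1.mono_set (prod_mono uIoc_subset_uIcc uIoc_subset_uIcc))
  simp only [circleIntegral, smul_eq_mul]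
  have e1 : ∀ θ : ℝ, deriv (circleMap a r) θ * (∫ φ in (0 : ℝ)..2 * π,
      deriv (circleMap b s) φ * G (circleMap a r θ) (circleMap b s φ)) =
      ∫ φ in (0 : ℝ)..2 * π, deriv (circleMap a r) θ *
      (deriv (circleMap b s) φ * G (circleMap a r θ) (circleMap b s φ)) := by
    intro θ
    rw [intervalIntegral.integral_const_mul]
  have e2 : ∀ φ : ℝ, deriv (circleMap b s) φ * (∫ θ in (0 : ℝ)..2 * π,
      deriv (circleMap a r) θ * G (circleMap a r θ) (circleMap b s φ)) =
      ∫ θ in (0 : ℝ)..2 * π, deriv (circleMap a r) θ *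
      (deriv (circleMap b s) φ * G (circleMap a r θ) (circleMap b s φ)) := by
    intro φ
    rw [← intervalIntegral.integral_const_mul]
    refine intervalIntegral.integral_congr fun θ _ => ?_
    ring
  simp only [e1, e2]
  exact hsw

theorem cont_circ {G : ℂ → ℂ → ℂ} {a b : ℂ} {r s : ℝ} (hr : 0 ≤ r) (hs : 0 ≤ s)
    (hG : ContinuousOn (fun p : ℂ × ℂ => G p.1 p.2) (sphere a r ×ˢ sphere b s)) :
    Continuous (fun φ : ℝ => ∮ z in C(a, r), G z (circleMap b s φ)) := by
  have hG2 : Continuous (fun p : ℝ × ℝ => G (circleMap a r p.2) (circleMap b s p.1)) := by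
    rw [← continuousOn_univ]
    refine hG.comp (f := fun p : ℝ × ℝ => (circleMap a r p.2, circleMap b s p.1)) ?_ ?_
    · exact (((continuous_circleMap a r).comp continuous_snd).prodMk
        ((continuous_circleMap b s).comp continuous_fst)).continuousOn
    · intro p _
      exact ⟨circleMap_mem_sphere a hr _, circleMap_mem_sphere b hs _⟩
  have h1 : Continuous (fun p : ℝ × ℝ => deriv (circleMap a r) p.2) := by
    simp only [deriv_circleMap]
    exact ((continuous_circleMap 0 r).comp continuous_snd).mul continuous_const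
  simp only [circleIntegral, smul_eq_mul]
  exact intervalIntegral.continuous_parametric_intervalIntegral_of_continuous'
    (f := fun φ θ => deriv (circleMap a r) θ * G (circleMap a r θ) (circleMap b s φ))
    (h1.mul hG2) 0 (2 * π)

theorem JJ_const_mul (a : ℂ) (f : ℂ → ℂ) (e : ℂ) (r : ℝ) (x : ℂ) :
    JJ (fun z => a * f z) e r x = a * JJ f e r x := by
  unfold JJ
  simp only [mul_assoc, circleIntegral.integral_const_mul]
  ring

theorem JJ_congr {f g : ℂ → ℂ} {e : ℂ} {r : ℝ} (hr : 0 ≤ r) (h : ∀ z ∈ sphere e r, f z = g z)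
    (x : ℂ) : JJ f e r x = JJ g e r x := by
  unfold JJ
  congr 1
  refine circleIntegral.integral_congr hr fun z hz => ?_
  rw [h z hz]

theorem cont_inv {e x : ℂ} {r : ℝ} (hx : r < ‖x - e‖) :
    ContinuousOn (fun z : ℂ => (x - z)⁻¹) (sphere e r) := by
  refine ContinuousOn.inv₀ (by fun_prop) fun z hz h => ?_
  rw [mem_sphere_iff_norm, ← sub_eq_zero.1 h] at hz
  linarith

theorem JJ_sub {f g : ℂ → ℂ} {e x : ℂ} {r : ℝ} (hr : 0 ≤ r) (hx : r < ‖x - e‖)
    (hf : ContinuousOn f (sphere e r)) (hg : ContinuousOn g (sphere e r)) :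
    JJ (fun z => f z - g z) e r x = JJ f e r x - JJ g e r x := by
  unfold JJ
  have c1 : CircleIntegrable (fun z => f z * (x - z)⁻¹) e r :=
    (hf.mul (cont_inv hx)).circleIntegrable hr
  have c2 : CircleIntegrable (fun z => g z * (x - z)⁻¹) e r :=
    (hg.mul (cont_inv hx)).circleIntegrable hr
  rw [← mul_sub, ← circleIntegral.integral_sub c1 c2]
  congr 1
  refine circleIntegral.integral_congr hr fun z _ => ?_
  ring

/-- the inner identity of the product formula -/
theorem inner_id {B : ℂ → ℂ} {b x z : ℂ} {r : ℝ} (hr : 0 ≤ r) (hx : r < ‖x - b‖)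
    (hz : r < ‖z - b‖) (hxz : x ≠ z) (hB : ContinuousOn B (sphere b r))
    (hBx : B x = JJ B b r x) (hBz : B z = JJ B b r z) :
    (2 * π * I : ℂ)⁻¹ * (∮ w in C(b, r), B w * ((w - z)⁻¹ * (x - w)⁻¹)) =
      (x - z)⁻¹ * (B x - B z) := by
  rw [hBx, hBz]
  unfold JJ
  have c1 : CircleIntegrable (fun w => B w * (x - w)⁻¹) b r :=
    (hB.mul (cont_inv hx)).circleIntegrable hr
  have c2 : CircleIntegrable (fun w => B w * (z - w)⁻¹) b r :=
    (hB.mul (cont_inv hz)).circleIntegrable hr
  rw [← mul_sub, ← circleIntegral.integral_sub c1 c2, mul_left_comm,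
    ← circleIntegral.integral_const_mul ((x - z)⁻¹)]
  congr 1
  refine circleIntegral.integral_congr hr fun w hw => ?_
  rw [mem_sphere_iff_norm] at hw
  have h1 : x - w ≠ 0 := by
    intro h
    rw [← sub_eq_zero.1 h] at hw
    linarith
  have h2 : w - z ≠ 0 := by
    intro h
    rw [sub_eq_zero.1 h] at hw
    linarith
  have h3 : z - w ≠ 0 := by
    intro h
    apply h2
    linear_combination -h
  have h4 : x - z ≠ 0 := sub_ne_zero.2 hxz
  field_simp
  ring

/-- the product formula: if `A` is the sum of its Cauchy integrals over the circles of `s` and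
`B` over the circle of `j`, then `A B` is the sum over all of them -/
theorem prod_hole {ι : Type} [DecidableEq ι] {e : ι → ℂ} {r : ℝ} (hr : 0 < r) {s : Finset ι}
    {j : ι} (hj : j ∉ s) (hd : ∀ i ∈ s, 2 * r < ‖e i - e j‖) {A B : ℂ → ℂ}
    (hAc : ∀ i ∈ insert j s, ContinuousOn A (sphere (e i) r))
    (hBc : ∀ i ∈ insert j s, ContinuousOn B (sphere (e i) r))
    (hA : ∀ x, (∀ i ∈ s, r < ‖x - e i‖) → A x = ∑ i ∈ s, JJ A (e i) r x)
    (hB : ∀ x, r < ‖x - e j‖ → B x = JJ B (e j) r x)
    {x : ℂ} (hx : ∀ i ∈ insert j s, r < ‖x - e i‖) :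
    A x * B x = ∑ i ∈ insert j s, JJ (fun z => A z * B z) (e i) r x := by
  have hxj : r < ‖x - e j‖ := hx j (Finset.mem_insert_self _ _)
  have hxs : ∀ i ∈ s, r < ‖x - e i‖ := fun i hi => hx i (Finset.mem_insert_of_mem hi)
  have hAc' : ∀ i ∈ s, ContinuousOn A (sphere (e i) r) :=
    fun i hi => hAc i (Finset.mem_insert_of_mem hi)
  have hBc' : ∀ i ∈ s, ContinuousOn B (sphere (e i) r) :=
    fun i hi => hBc i (Finset.mem_insert_of_mem hi)
  have hBj : ContinuousOn B (sphere (e j) r) := hBc j (Finset.mem_insert_self _ _)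
  have hfar : ∀ i ∈ s, ∀ w ∈ sphere (e j) r, r < ‖w - e i‖ := by
    intro i hi w hw
    rw [mem_sphere_iff_norm] at hw
    have h1 := hd i hi
    have h2 : ‖e i - e j‖ ≤ ‖w - e i‖ + ‖w - e j‖ := by
      rw [← norm_neg (w - e i)]
      have : e i - e j = -(w - e i) + (w - e j) := by ring
      rw [this]
      exact norm_add_le _ _
    linarith
  have hfar2 : ∀ i ∈ s, ∀ z ∈ sphere (e i) r, r < ‖z - e j‖ := by
    intro i hi z hz
    rw [mem_sphere_iff_norm] at hz
    have h1 := hd i hi
    have h2 : ‖e i - e j‖ ≤ ‖z - e i‖ + ‖z - e j‖ := by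
      rw [← norm_neg (z - e i)]
      have : e i - e j = -(z - e i) + (z - e j) := by ring
      rw [this]
      exact norm_add_le _ _
    linarith
  rw [Finset.sum_insert hj]
  -- the circle `j`
  have h1 : JJ (fun z => A z * B z) (e j) r x =
      ∑ i ∈ s, (B x * JJ A (e i) r x - JJ (fun z => A z * B z) (e i) r x) := by
    have h2 : JJ (fun z => A z * B z) (e j) r x = (2 * π * I : ℂ)⁻¹ *
        ∮ w in C(e j, r), ∑ i ∈ s, (JJ A (e i) r w * B w * (x - w)⁻¹) := by
      unfold JJ
      congr 1
      refine circleIntegral.integral_congr hr.le fun w hw => ?_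
      simp only
      rw [hA w fun i hi => hfar i hi w hw, Finset.sum_mul, Finset.sum_mul]
      rfl
    have hG : ∀ i ∈ s, ContinuousOn (fun p : ℂ × ℂ =>
        A p.1 * (B p.2 * ((p.2 - p.1)⁻¹ * (x - p.2)⁻¹))) (sphere (e i) r ×ˢ sphere (e j) r) := by
      intro i hi
      have k1 : ContinuousOn (fun p : ℂ × ℂ => A p.1) (sphere (e i) r ×ˢ sphere (e j) r) :=
        (hAc' i hi).comp continuousOn_fst fun p hp => hp.1
      have k2 : ContinuousOn (fun p : ℂ × ℂ => B p.2) (sphere (e i) r ×ˢ sphere (e j) r) :=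
        hBj.comp continuousOn_snd fun p hp => hp.2
      have k3 : ContinuousOn (fun p : ℂ × ℂ => (x - p.2)⁻¹) (sphere (e i) r ×ˢ sphere (e j) r) :=
        (cont_inv hxj).comp continuousOn_snd fun p hp => hp.2
      have k4 : ContinuousOn (fun p : ℂ × ℂ => (p.2 - p.1)⁻¹)
          (sphere (e i) r ×ˢ sphere (e j) r) := by
        refine ContinuousOn.inv₀ (by fun_prop) fun p hp h => ?_
        have h5 := hfar i hi p.2 hp.2
        have h6 := hp.1
        rw [mem_sphere_iff_norm, ← sub_eq_zero.1 h] at h6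
        linarith
      exact k1.mul (k2.mul (k4.mul k3))
    have hJ : ∀ i, ∀ w, JJ A (e i) r w * B w * (x - w)⁻¹ =
        (2 * π * I : ℂ)⁻¹ * ∮ z in C(e i, r), A z * (B w * ((w - z)⁻¹ * (x - w)⁻¹)) := by
      intro i w
      unfold JJ
      rw [mul_assoc, mul_assoc, mul_comm (∮ z in C(e i, r), A z * (w - z)⁻¹),
        ← circleIntegral.integral_const_mul]
      congr 1
      refine circleIntegral.integral_congr hr.le fun z _ => ?_
      ring
    have h3 : ∀ i ∈ s, CircleIntegrable (fun w => JJ A (e i) r w * B w * (x - w)⁻¹)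
        (e j) r := by
      intro i hi
      refine Continuous.intervalIntegrable ?_ _ _
      simp only [hJ]
      exact continuous_const.mul (cont_circ (G := fun z w =>
        A z * (B w * ((w - z)⁻¹ * (x - w)⁻¹))) hr.le hr.le (hG i hi))
    rw [h2, circleIntegral.integral_fun_sum h3, Finset.mul_sum]
    refine Finset.sum_congr rfl fun i hi => ?_
    simp only [hJ]
    have k5 : ContinuousOn (fun z => B x * A z) (sphere (e i) r) :=
      continuousOn_const.mul (hAc' i hi)
    have k6 : ContinuousOn (fun z => A z * B z) (sphere (e i) r) :=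
      (hAc' i hi).mul (hBc' i hi)
    rw [circleIntegral.integral_const_mul, ← circle_swap hr.le hr.le (hG i hi),
      ← JJ_const_mul, ← JJ_sub hr.le (hxs i hi) k5 k6]
    unfold JJ
    congr 1
    rw [← circleIntegral.integral_const_mul]
    refine circleIntegral.integral_congr hr.le fun z hz => ?_
    have hzj := hfar2 i hi z hz
    have hxz : x ≠ z := by
      intro h
      have h7 := hxs i hi
      rw [mem_sphere_iff_norm, ← h] at hz
      linarith
    have h8 := inner_id hr.le hxj hzj hxz hBj (hB x hxj) (hB z hzj)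
    simp only
    rw [circleIntegral.integral_const_mul, mul_left_comm, h8]
    ring
  rw [h1, hA x hxs, Finset.sum_sub_distrib, ← Finset.mul_sum]
  ring

end

end Vale.Agent.P273.H517
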