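import Vale.Agent.P273.H598.Node2
import Vale.Agent.P273.H604.ParHol

/-!
# P273 / H517: the neck potential of one node, holomorphic in all variables

Coordinates `((q, l), z)`: `d = exp l`, `X = exp (l + z)`, `Y = exp (l - z)`, so `X Y = d ^ 2`.
-/

namespace Vale.Agent.P273.H517

open Set Filter Topology Metric Complex
open scoped ContDiff
open Vale.Agent.P273.H598 (NB HH GG Gd c0 q0 P0 bb)

noncomputable section

abbrev C6' : Type := Fin 6 → ℂ

/-- model space -/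
abbrev Mn : Type := (C6' × ℂ) × ℂ

/-- neck coordinates -/
def Xn (p : Mn) : ℂ := cexp (p.1.2 + p.2)
def Yn (p : Mn) : ℂ := cexp (p.1.2 - p.2)

theorem Xn_mul_Yn (p : Mn) : Xn p * Yn p = cexp p.1.2 ^ 2 := by
  unfold Xn Yn
  rw [← Complex.exp_add, ← Complex.exp_nat_mul]
  congr 1
  push_cast
  ring

theorem Xn_ne (p : Mn) : Xn p ≠ 0 := Complex.exp_ne_zero _
theorem Yn_ne (p : Mn) : Yn p ≠ 0 := Complex.exp_ne_zero _

theorem Xn_neg (b : C6' × ℂ) (z : ℂ) : Xn (b, -z) = Yn (b, z) := by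
  unfold Xn Yn
  simp [sub_eq_add_neg]

theorem Yn_neg (b : C6' × ℂ) (z : ℂ) : Yn (b, -z) = Xn (b, z) := by
  unfold Xn Yn
  simp

theorem differentiable_Xn : Differentiable ℂ Xn := by
  unfold Xn
  fun_prop

theorem differentiable_Yn : Differentiable ℂ Yn := by
  unfold Yn
  fun_prop

theorem differentiable_dn : Differentiable ℂ fun p : Mn => cexp p.1.2 ^ 2 := by
  fun_prop

/-- the domain -/
def Dn (V : Set C6') (r : ℝ) : Set Mn := {p | p.1.1 ∈ V ∧ ‖Xn p‖ < r ∧ ‖Yn p‖ < r}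

theorem isOpen_Dn {V : Set C6'} (hV : IsOpen V) (r : ℝ) : IsOpen (Dn V r) := by
  have h : Dn V r = (fun p : Mn => p.1.1) ⁻¹' V ∩ ({p | ‖Xn p‖ < r} ∩ {p | ‖Yn p‖ < r}) := rfl
  rw [h]
  exact (hV.preimage (by fun_prop)).inter
    ((isOpen_lt differentiable_Xn.continuous.norm continuous_const).inter
      (isOpen_lt differentiable_Yn.continuous.norm continuous_const))

theorem norm_dn_lt {V : Set C6'} {r : ℝ} {p : Mn} (h : p ∈ Dn V r) :
    ‖cexp p.1.2 ^ 2‖ < r ^ 2 := by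
  rw [← Xn_mul_Yn, norm_mul, sq]
  exact mul_lt_mul'' h.2.1 h.2.2 (norm_nonneg _) (norm_nonneg _)

variable (i : Fin 5) (m : ℕ) (r : ℝ)

/-- the odd primitive -/
def WW (p : Mn) : ℂ :=
  c0 (fun z => HH i m (p.1.1, z)) r (cexp p.1.2 ^ 2) * p.2 +
    P0 (fun z => HH i m (p.1.1, z)) r (Xn p) (cexp p.1.2 ^ 2) -
    P0 (fun z => HH i m (p.1.1, z)) r (Yn p) (cexp p.1.2 ^ 2)

theorem WW_neg (b : C6' × ℂ) (z : ℂ) : WW i m r (b, -z) = -WW i m r (b, z) := by
  unfold WW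
  rw [Xn_neg, Yn_neg]
  ring

variable {i m r}

section

variable {V : Set C6'} {ρ : ℝ}

theorem differentiableOn_WW (h : NB i V ρ) :
    DifferentiableOn ℂ (WW i m (5 * ρ)) (Dn V (5 * ρ)) := by
  have hρ := h.pos
  have hr : 5 * ρ < 6 * ρ := by linarith
  have hH : DifferentiableOn ℂ (HH i m) (V ×ˢ ball (0 : ℂ) (6 * ρ)) :=
    (H598.differentiableOn_HH m).mono h.gd
  have h1 := H598.differentiableOn_c0 h.op (by linarith : (0 : ℝ) < 5 * ρ) hr hH
  have h2 := H598.differentiableOn_P0 h.op hr hH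
  have e1 : DifferentiableOn ℂ (fun p : Mn => (cexp p.1.2 ^ 2, p.1.1)) (Dn V (5 * ρ)) := by
    fun_prop
  have e2 : DifferentiableOn ℂ (fun p : Mn => (Xn p, cexp p.1.2 ^ 2, p.1.1)) (Dn V (5 * ρ)) :=
    (differentiable_Xn.prodMk (by fun_prop)).differentiableOn
  have e3 : DifferentiableOn ℂ (fun p : Mn => (Yn p, cexp p.1.2 ^ 2, p.1.1)) (Dn V (5 * ρ)) :=
    (differentiable_Yn.prodMk (by fun_prop)).differentiableOn
  have d1 := h1.comp e1 (fun p hp => ⟨mem_ball_zero_iff.2 (norm_dn_lt hp), hp.1⟩)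
  have d2 := h2.comp e2 (fun p hp =>
    ⟨mem_ball_zero_iff.2 hp.2.1, mem_ball_zero_iff.2 (norm_dn_lt hp), hp.1⟩)
  have d3 := h2.comp e3 (fun p hp =>
    ⟨mem_ball_zero_iff.2 hp.2.2, mem_ball_zero_iff.2 (norm_dn_lt hp), hp.1⟩)
  have d0 : DifferentiableOn ℂ (fun p : Mn => p.2) (Dn V (5 * ρ)) := differentiableOn_snd
  exact ((d1.mul d0).add d2).sub d3

theorem contDiffAt_WW (h : NB i V ρ) {p : Mn} (hp : p ∈ Dn V (5 * ρ)) :
    ContDiffAt ℝ ∞ (WW i m (5 * ρ)) p :=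
  (H604.contDiffOn_real_of_differentiableOn (isOpen_Dn h.op _)
    (differentiableOn_WW h)).contDiffAt ((isOpen_Dn h.op _).mem_nhds hp)

/-- **the derivative along the fibre** -/
theorem hasDerivAt_WW (h : NB i V ρ) {p : Mn} (hp : p ∈ Dn V (5 * ρ)) :
    HasDerivAt (fun z => WW i m (5 * ρ) (p.1, z)) (HH i m (p.1.1, (Xn p + Yn p) / 2)) p.2 := by
  have hρ := h.pos
  have hcl := h.dcc m hp.1
  have hc : ContinuousOn (fun z => HH i m (p.1.1, z)) (sphere 0 (5 * ρ)) := by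
    have h3 := hcl.continuousOn
    rw [closure_ball _ (by positivity)] at h3
    exact h3.mono sphere_subset_closedBall
  have hX : HasDerivAt (fun z : ℂ => cexp (p.1.2 + z)) (Xn p) p.2 := by
    have := ((hasDerivAt_id p.2).const_add p.1.2).cexp
    simpa [Xn] using this
  have hY : HasDerivAt (fun z : ℂ => cexp (p.1.2 - z)) (-Yn p) p.2 := by
    have := ((hasDerivAt_id p.2).const_sub p.1.2).cexp
    simpa [Yn] using this
  have h1 := (H598.hasDerivAt_P0 hc hp.2.1 (norm_dn_lt hp)).scomp p.2 hX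
  have h2 := (H598.hasDerivAt_P0 hc hp.2.2 (norm_dn_lt hp)).scomp p.2 hY
  have h3 := ((hasDerivAt_id p.2).const_mul
    (c0 (fun z => HH i m (p.1.1, z)) (5 * ρ) (cexp p.1.2 ^ 2)))
  have h4 := (h3.add h1).sub h2
  have h5 := H598.split hcl hp.2.1 hp.2.2 (Xn_mul_Yn p)
  refine (h4.congr_deriv ?_)
  rw [h5]
  simp only [smul_eq_mul]
  ring

end

end

end Vale.Agent.P273.H517
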